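import Vale.Agent.P174.Main
import Vale.Agent.P174.TStrong
import Vale.Agent.P174.Classes

/-!
# P174: Howie's conjecture is inherited by extensions

`Howie G` says that every finite system of equations over `G` whose exponent-sum matrix has rank
(over the rationals) equal to the number of equations is solvable over `G`; `HowieMod p G` is the
same for the systems whose matrix has full rank modulo the prime `p`; `ResP p Q` says that `Q` is
residually a finite `p`-group.

Let `N` be a normal subgroup of `G` such that `G/N` embeds in `Q`, that is, `N` is the kernel of a
homomorphism from `G` to `Q`.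

1. If every finitely generated subgroup of `Q` is residually a finite `p`-group for infinitely
   many primes `p`, and Howie's conjecture holds for `N`, then it holds for `G`.
2. If, for one prime `p`, every finitely generated subgroup of `Q` is residually a finite
   `p`-group, and all systems over `N` nonsingular modulo `p` are solvable over `N`, then the same
   is true for `G`.
3. If in every finitely generated subgroup `S` of `Q` every nontrivial subgroup of `S` has a
   nontrivial homomorphism to the additive group of rationals, and Howie's conjecture holds for
   `N`, then it holds for `G`.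
-/

universe u

namespace Vale.Agent.P174

section homs

variable {G : Type u} [Group G] {Q : Type u} [Group Q] (π : G →* Q) (S : Subgroup G)

/-- the kernel of the restriction of `π` to a subgroup embeds in the kernel of `π` -/
def kerRes : (π.subgroupMap S).ker →* π.ker where
  toFun x := ⟨x.1.1, by
    have h1 : π.subgroupMap S x.1 = 1 := x.2
    exact congrArg Subtype.val h1⟩
  map_one' := rfl
  map_mul' _ _ := rfl

lemma kerRes_injective : Function.Injective (kerRes π S) := by
  intro a b h
  have := congrArg Subtype.val h
  exact Subtype.ext (Subtype.ext this)

lemma map_fg' (hS : S.FG) : (S.map π).FG := by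
  classical
  obtain ⟨T, hT⟩ := hS
  refine ⟨T.image π, ?_⟩
  rw [Finset.coe_image, ← MonoidHom.map_closure, hT]

end homs

end Vale.Agent.P174

open Vale.Agent.P174

theorem Vale.Agent.Results.P174.Extension.result :
    (∀ (G Q : Type u) [Group G] [Group Q] (π : G →* Q),
      LocallyResMany Q → Howie π.ker → Howie G) ∧
    (∀ (p : ℕ), p.Prime → ∀ (G Q : Type u) [Group G] [Group Q] (π : G →* Q),
      LocallyResP p Q → HowieMod p π.ker → HowieMod p G) ∧
    (∀ (G Q : Type) [Group G] [Group Q] (π : G →* Q),
      (∀ S : Subgroup Q, S.FG → SubgroupsIndicable S) → Howie π.ker → Howie G) := by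
  refine ⟨?_, ?_, ?_⟩
  · intro G Q _ _ π hQ hN
    apply howie_of_local
    intro S hS
    exact howie_of_hom (π.subgroupMap S) (hQ _ (map_fg' π S hS))
      (howie_of_injective (kerRes π S) (kerRes_injective π S) hN)
  · intro p hp G Q _ _ π hQ hN
    have : Fact p.Prime := ⟨hp⟩
    apply howieMod_of_local
    intro S hS
    exact howieMod_of_hom (π.subgroupMap S) (hQ _ (map_fg' π S hS))
      (howieMod_of_injective (kerRes π S) (kerRes_injective π S) hN)
  · intro G Q _ _ π hQ hN
    apply howie_of_local
    intro S hS
    exact main3_of_hom (π.subgroupMap S) (hQ _ (map_fg' π S hS))
      (howie_of_injective (kerRes π S) (kerRes_injective π S) hN)
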