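import Vale.Agent.P174u.Amal

/-!
# P174: a local criterion for Howie's conjecture

`Howie G` says that every finite system of equations over `G` whose exponent-sum matrix has
rational rank equal to the number of equations is solvable over `G`; `HowieMod p G` is the same
for the systems whose matrix has full rank modulo the prime `p`.

1. If every finitely generated subgroup of `G` is commutative or maps onto the infinite cyclic
   group, then `G` satisfies Howie's conjecture.
2. If every finitely generated subgroup of `G` is commutative or maps onto the cyclic group of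
   order `p`, then every finite system over `G` which is nonsingular modulo `p` is solvable.
3. If `π : G → Q` is a homomorphism with commutative kernel and `Q` is locally indicable, then `G`
   satisfies Howie's conjecture.
4. If every finitely generated subgroup `S` of `G` satisfies Howie's conjecture or maps onto the
   infinite cyclic group, then `G` satisfies Howie's conjecture.
5. The same for one prime `p`, with `HowieMod p` and the cyclic group of order `p`.
6. If `π : G → Q` is a homomorphism, `Q` is locally indicable and the kernel of `π` satisfies
   Howie's conjecture, then `G` does.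
7. The same for one prime `p` and `Q` locally `p`-indicable.
8. Howie's conjecture for `G` is equivalent to `HowieMod p G` for arbitrarily large primes `p`.
9. Over an arbitrary group `G`, every nonsingular finite system whose coefficients lie in a
   subgroup which satisfies Howie's conjecture (for example as in 1 or 3) is solvable.
-/

universe u v

open Vale.Agent.P174 Vale.Agent.P174u

theorem Vale.Agent.Results.P174.LocalCriterion.result :
    (∀ (G : Type u) [Group G],
      (∀ S : Subgroup G, S.FG → IsComm S ∨ MapsOnto S (Multiplicative ℤ)) → Howie G) ∧
    (∀ (p : ℕ), p.Prime → ∀ (G : Type u) [Group G],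
      (∀ S : Subgroup G, S.FG → IsComm S ∨ MapsOnto S (Multiplicative (ZMod p))) →
        HowieMod p G) ∧
    (∀ (G : Type u) (Q : Type v) [Group G] [Group Q] (π : G →* Q),
      LocallyOnto (Multiplicative ℤ) Q → IsComm π.ker → Howie G) ∧
    (∀ (G : Type u) [Group G],
      (∀ S : Subgroup G, S.FG → Howie S ∨ MapsOnto S (Multiplicative ℤ)) → Howie G) ∧
    (∀ (p : ℕ), p.Prime → ∀ (G : Type u) [Group G],
      (∀ S : Subgroup G, S.FG → HowieMod p S ∨ MapsOnto S (Multiplicative (ZMod p))) →
        HowieMod p G) ∧
    (∀ (G : Type u) (Q : Type v) [Group G] [Group Q] (π : G →* Q),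
      LocallyOnto (Multiplicative ℤ) Q → Howie π.ker → Howie G) ∧
    (∀ (p : ℕ), p.Prime → ∀ (G : Type u) (Q : Type v) [Group G] [Group Q] (π : G →* Q),
      LocallyOnto (Multiplicative (ZMod p)) Q → HowieMod p π.ker → HowieMod p G) ∧
    (∀ (G : Type u) [Group G], Howie G ↔ ∀ M : ℕ, ∃ p, M < p ∧ p.Prime ∧ HowieMod p G) ∧
    (∀ (G : Type u) [Group G] (S : Subgroup G), Howie S → HowieWith S) :=
  ⟨fun _ _ h => P174u.fin_comm h, fun _ hp _ _ h => P174u.fin_commMod hp h,
    fun _ _ _ _ π hQ hN => P174u.fin_commExt π hQ hN,
    fun _ _ h => P174u.fin_local h, fun _ hp _ _ h => P174u.fin_localMod hp h,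
    fun _ _ _ _ π hQ hN => P174u.fin_ext π hQ hN,
    fun _ hp _ _ _ _ π hQ hN => P174u.fin_extMod hp π hQ hN, fun _ _ => P174u.fin_iff,
    fun _ _ S hS => P174u.fin_coef S hS⟩
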