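import Vale.Agent.P174u.Amal

/-!
# P174: reduction of Howie's conjecture to finitely generated groups with finite abelianization

1. For every class `C` of groups which is closed under subgroups: Howie's conjecture holds for all
   groups in `C` if and only if it holds for the finitely generated groups in `C` which do not map
   onto the infinite cyclic group.
2. The same for one prime `p`: systems nonsingular modulo `p`, and the groups in `C` which do not
   map onto the cyclic group of order `p`.
3. Howie's conjecture holds for all groups in `C` if and only if for arbitrarily large primes `p`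
   every system nonsingular modulo `p` is solvable over every finitely generated group in `C` which
   does not map onto the cyclic group of order `p`.
4. The case of all groups.
-/

universe u

open Vale.Agent.P174 Vale.Agent.P174u

theorem Vale.Agent.Results.P174.Reduction.result :
    (∀ C : (∀ (G : Type u) [Group G], Prop),
      (∀ (G : Type u) [Group G] (S : Subgroup G), C G → C S) →
      ((∀ (G : Type u) [Group G], C G → Howie G) ↔
        ∀ (G : Type u) [Group G], C G → Group.FG G → ¬ MapsOnto G (Multiplicative ℤ) →
          Howie G) ∧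
      (∀ p : ℕ, p.Prime → ((∀ (G : Type u) [Group G], C G → HowieMod p G) ↔
        ∀ (G : Type u) [Group G], C G → Group.FG G → ¬ MapsOnto G (Multiplicative (ZMod p)) →
          HowieMod p G)) ∧
      ((∀ (G : Type u) [Group G], C G → Howie G) ↔
        ∀ M : ℕ, ∃ p, M < p ∧ p.Prime ∧ ∀ (G : Type u) [Group G], C G → Group.FG G →
          ¬ MapsOnto G (Multiplicative (ZMod p)) → HowieMod p G)) ∧
    ((∀ (G : Type u) [Group G], Howie G) ↔
      ∀ (G : Type u) [Group G], Group.FG G → ¬ MapsOnto G (Multiplicative ℤ) → Howie G) ∧
    ((∀ (G : Type u) [Group G], Howie G) ↔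
      ∀ M : ℕ, ∃ p, M < p ∧ p.Prime ∧ ∀ (G : Type u) [Group G], Group.FG G →
        ¬ MapsOnto G (Multiplicative (ZMod p)) → HowieMod p G) := by
  have key : ∀ C : (∀ (G : Type u) [Group G], Prop),
      (∀ (G : Type u) [Group G] (S : Subgroup G), C G → C S) →
      ((∀ (G : Type u) [Group G], C G → Howie G) ↔
        ∀ (G : Type u) [Group G], C G → Group.FG G → ¬ MapsOnto G (Multiplicative ℤ) →
          Howie G) ∧
      (∀ p : ℕ, p.Prime → ((∀ (G : Type u) [Group G], C G → HowieMod p G) ↔
        ∀ (G : Type u) [Group G], C G → Group.FG G → ¬ MapsOnto G (Multiplicative (ZMod p)) →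
          HowieMod p G)) ∧
      ((∀ (G : Type u) [Group G], C G → Howie G) ↔
        ∀ M : ℕ, ∃ p, M < p ∧ p.Prime ∧ ∀ (G : Type u) [Group G], C G → Group.FG G →
          ¬ MapsOnto G (Multiplicative (ZMod p)) → HowieMod p G) := by
    intro C hC
    have hmod : ∀ p : ℕ, p.Prime → ((∀ (G : Type u) [Group G], C G → HowieMod p G) ↔
        ∀ (G : Type u) [Group G], C G → Group.FG G → ¬ MapsOnto G (Multiplicative (ZMod p)) →
          HowieMod p G) := by
      intro p hp
      refine ⟨fun h G _ hG _ _ => h G hG, fun h G _ hG => ?_⟩
      apply P174u.fin_localMod hp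
      intro S hS
      by_cases hn : MapsOnto S (Multiplicative (ZMod p))
      · exact Or.inr hn
      · exact Or.inl (h S (hC G S hG) ((Group.fg_iff_subgroup_fg S).2 hS) hn)
    refine ⟨⟨fun h G _ hG _ _ => h G hG, fun h G _ hG => ?_⟩, hmod, ⟨fun h M => ?_, fun h G _ hG => ?_⟩⟩
    · apply P174u.fin_local
      intro S hS
      by_cases hn : MapsOnto S (Multiplicative ℤ)
      · exact Or.inr hn
      · exact Or.inl (h S (hC G S hG) ((Group.fg_iff_subgroup_fg S).2 hS) hn)
    · obtain ⟨p, hp1, hp2⟩ := Nat.exists_infinite_primes (M + 1)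
      refine ⟨p, by omega, hp2, fun G _ hG _ _ => ?_⟩
      exact (P174u.howieMod_eq hp2).2 ((P174u.howie_eq.1 (h G hG)).howieMod hp2)
    · rw [P174u.fin_iff]
      intro M
      obtain ⟨p, hp1, hp2, hp3⟩ := h M
      exact ⟨p, hp1, hp2, (hmod p hp2).2 hp3 G hG⟩
  refine ⟨key, ?_, ?_⟩
  · have := (key (fun _ _ => True) (fun _ _ _ _ => trivial)).1
    simpa using this
  · have := (key (fun _ _ => True) (fun _ _ _ _ => trivial)).2.2
    simpa using this
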